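import Vale.Agent.P097.LR.Defs

/-! # P097 / H809 : CLS, classification by the maximum principle -/

set_option linter.all false

open scoped Topology
open Filter Set

namespace Vale.Agent.P097.H809

open Vale.Agent.P097.LR

/-- removable singularities by the limit -/
noncomputable def rem (Γ : ℂ → ℂ) (x : ℂ) : ℂ := limUnder (𝓝[≠] x) Γ

theorem rem_eq_of {Γ f : ℂ → ℂ} {x₀ : ℂ} (hf : AnalyticAt ℂ f x₀)
    (h : ∀ᶠ x in 𝓝[≠] x₀, Γ x = f x) : ∀ᶠ x in 𝓝 x₀, rem Γ x = f x := by
  have h1 : ∀ᶠ y in 𝓝 x₀, AnalyticAt ℂ f y := hf.eventually_analyticAt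
  have h2 : ∀ᶠ y in 𝓝 x₀, ∀ᶠ x in 𝓝[≠] y, Γ x = f x := by
    rw [eventually_nhdsWithin_iff] at h
    have h3 := eventually_eventually_nhds.2 h
    filter_upwards [h3] with y hy
    by_cases hyx : y = x₀
    · subst hyx
      rw [eventually_nhdsWithin_iff]
      exact hy
    · have h4 : ∀ᶠ x in 𝓝 y, x ≠ x₀ := isOpen_ne.mem_nhds hyx
      exact (hy.and h4).filter_mono nhdsWithin_le_nhds |>.mono fun x hx => hx.1 hx.2
  filter_upwards [h1, h2] with y hy1 hy2
  have h5 : Tendsto Γ (𝓝[≠] y) (𝓝 (f y)) :=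
    (hy1.continuousAt.tendsto.mono_left nhdsWithin_le_nhds).congr' (hy2.mono fun x hx => hx.symm)
  exact h5.limUnder_eq

theorem xi_im (b : ℝ) (k : ℤ) : (xi b k).im = b := by
  unfold xi
  simp

theorem xi_add (b : ℝ) (k m : ℤ) : xi b (k + 2 * m) = xi b k + m := by
  unfold xi
  push_cast
  ring

theorem per_int {b δ κ₀ : ℝ} {Γ : ℂ → ℂ}
    (per : ∀ x : ℂ, -κ₀ < x.im → x.im < b + δ → Γ (x + 1) = Γ x) (m : ℤ) (x : ℂ)
    (h1 : -κ₀ < x.im) (h2 : x.im < b + δ) : Γ (x + m) = Γ x := by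
  induction m using Int.induction_on with
  | zero => simp
  | succ i ih =>
    have h := per (x + i) (by simpa using h1) (by simpa using h2)
    push_cast at ih ⊢
    rw [← add_assoc, h, ih]
  | pred i ih =>
    have h := per (x + (-(i : ℂ) - 1)) (by simpa using h1) (by simpa using h2)
    push_cast at ih ⊢
    rw [← h, ← ih]
    congr 1
    ring

theorem isClosed_xi (b : ℝ) : IsClosed {x : ℂ | ∃ k : ℤ, x = xi b k} := by
  have h1 : {x : ℂ | ∃ k : ℤ, x = xi b k} =
      (fun x : ℂ => Complex.exp (4 * Real.pi * Complex.I * (x - b * Complex.I))) ⁻¹' {1} := by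
    ext x
    rw [mem_preimage, mem_singleton_iff, Complex.exp_eq_one_iff, mem_setOf_eq]
    have hpi : (Real.pi : ℂ) ≠ 0 := by exact_mod_cast Real.pi_ne_zero
    refine exists_congr fun k => ?_
    constructor
    · rintro rfl
      unfold xi
      ring
    · intro h
      have h2 : (Real.pi : ℂ) * Complex.I ≠ 0 := mul_ne_zero hpi Complex.I_ne_zero
      have h3 : (Real.pi : ℂ) * Complex.I * (4 * (x - b * Complex.I) - 2 * k) = 0 := by
        linear_combination h
      have h4 := (mul_eq_zero.1 h3).resolve_left h2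
      unfold xi
      linear_combination h4 / 4
  rw [h1]
  exact isClosed_singleton.preimage (by fun_prop)

theorem nhds_xi {b : ℝ} {x₀ : ℂ} (h : ∀ k : ℤ, x₀ ≠ xi b k) :
    {x : ℂ | ∀ k : ℤ, x ≠ xi b k} ∈ 𝓝 x₀ := by
  have h1 := (isClosed_xi b).isOpen_compl.mem_nhds (x := x₀) (by
    rintro ⟨k, hk⟩
    exact h k hk)
  refine Filter.mem_of_superset h1 ?_
  intro x hx k hk
  exact hx ⟨k, hk⟩

/-- the domain between `-κ₀` and `b + δ` -/
def DD (κ₀ b δ : ℝ) : Set ℂ := {x | -κ₀ < x.im ∧ x.im < b + δ}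

theorem isOpen_DD (κ₀ b δ : ℝ) : IsOpen (DD κ₀ b δ) :=
  (isOpen_lt continuous_const Complex.continuous_im).inter
    (isOpen_lt Complex.continuous_im continuous_const)

theorem isPreconnected_DD (κ₀ b δ : ℝ) : IsPreconnected (DD κ₀ b δ) := by
  apply Convex.isPreconnected
  have h1 : Convex ℝ {x : ℂ | -κ₀ < x.im} := convex_halfSpace_im_gt _
  have h2 : Convex ℝ {x : ℂ | x.im < b + δ} := convex_halfSpace_im_lt _
  exact h1.inter h2

/-- local description at every point -/
theorem aout_loc {b δ κ₀ : ℝ} {γ Γ : ℂ → ℂ} {A : Fin 2 → ℂ} (hO : AOut b δ κ₀ γ Γ A)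
    (hA : ∀ j, A j = 0) {x₀ : ℂ} (hx₀ : x₀ ∈ DD κ₀ b δ) :
    ∃ f : ℂ → ℂ, AnalyticAt ℂ f x₀ ∧ ∀ᶠ x in 𝓝[≠] x₀, Γ x = f x := by
  have hDo := isOpen_DD κ₀ b δ
  by_cases h : ∃ k : ℤ, x₀ = xi b k
  · obtain ⟨k, hk0⟩ := h
    obtain ⟨j, m, hk⟩ : ∃ (j : Fin 2) (m : ℤ), k = ((j : ℕ) : ℤ) + 2 * m := by
      rcases Int.even_or_odd' k with ⟨m, hm | hm⟩
      · exact ⟨0, m, by simp [hm]⟩
      · exact ⟨1, m, by simp [hm]; ring⟩
    obtain ⟨f, hf, hev⟩ := hO.pole j
    have e : x₀ = xi b ((j : ℕ) : ℤ) + m := by rw [hk0, hk, xi_add]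
    refine ⟨fun x => f (x - m), ?_, ?_⟩
    · have h1 : AnalyticAt ℂ (fun x : ℂ => x - (m : ℂ)) x₀ := by fun_prop
      have h2 : AnalyticAt ℂ f (x₀ - m) := by
        rw [e, add_sub_cancel_right]; exact hf
      exact AnalyticAt.comp' h2 h1
    · have h1 : Tendsto (fun x : ℂ => x - (m : ℂ)) (𝓝[≠] x₀)
          (𝓝[≠] (xi b ((j : ℕ) : ℤ))) := by
        rw [e]
        refine tendsto_nhdsWithin_of_tendsto_nhds_of_eventually_within _ ?_ ?_
        · have h3 : Tendsto (fun x : ℂ => x - (m : ℂ)) (𝓝 (xi b ((j : ℕ) : ℤ) + m))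
              (𝓝 (xi b ((j : ℕ) : ℤ) + m - m)) :=
            (continuous_id.sub continuous_const).tendsto _
          rw [add_sub_cancel_right] at h3
          exact h3.mono_left nhdsWithin_le_nhds
        · filter_upwards [self_mem_nhdsWithin] with x hx
          intro h'
          exact hx (by rw [mem_singleton_iff, ← h']; ring)
      have h2 := h1.eventually hev
      have h3 : ∀ᶠ x in 𝓝[≠] x₀, x ∈ DD κ₀ b δ :=
        eventually_nhdsWithin_of_eventually_nhds (hDo.mem_nhds hx₀)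
      filter_upwards [h2, h3] with x hx hxD
      rw [hA j, zero_div, zero_add] at hx
      rw [← hx]
      have h4 := per_int hO.per (-m) x hxD.1 hxD.2
      rw [← h4]
      congr 1
      push_cast
      ring
  · have h0 : ∀ k : ℤ, x₀ ≠ xi b k := fun k hk => h ⟨k, hk⟩
    have hU : {x : ℂ | -κ₀ < x.im ∧ x.im < b + δ ∧ ∀ k : ℤ, x ≠ xi b k} ∈ 𝓝 x₀ := by
      filter_upwards [hDo.mem_nhds hx₀, nhds_xi h0] with x hx hx'
      exact ⟨hx.1, hx.2, hx'⟩
    exact ⟨Γ, hO.dΓ.analyticAt hU, Eventually.of_forall fun x => rfl⟩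

/-- a point of local maximum of the modulus -/
theorem const_of_isLocalMax {D : Set ℂ} (hD : IsPreconnected D) {F : ℂ → ℂ}
    (hF : AnalyticOnNhd ℂ F D) {x₀ : ℂ} (hx₀ : x₀ ∈ D)
    (hm : ∀ᶠ x in 𝓝 x₀, ‖F x‖ ≤ ‖F x₀‖) : ∀ x ∈ D, F x = F x₀ := by
  have h1 : ∀ᶠ x in 𝓝 x₀, F x = F x₀ := by
    apply Complex.eventually_eq_of_isLocalMax_norm
    · exact (hF x₀ hx₀).eventually_analyticAt.mono fun x hx => hx.differentiableAt
    · exact hm
  have h2 := hF.eqOn_of_preconnected_of_eventuallyEq (g := fun _ => F x₀)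
    (fun x _ => analyticAt_const) hD hx₀ h1
  exact h2

/-- two continuous functions which agree off a horizontal line agree -/
theorem eq_off_line {u v : ℂ → ℂ} {x : ℂ} (b : ℝ) (hu : ContinuousAt u x) (hv : ContinuousAt v x)
    (h : ∀ᶠ y in 𝓝 x, y.im ≠ b → u y = v y) : u x = v x := by
  have h1 : Tendsto (fun t : ℝ => x + t * Complex.I) (𝓝[≠] 0) (𝓝 x) := by
    have h2 : Tendsto (fun t : ℝ => x + t * Complex.I) (𝓝 0) (𝓝 (x + ((0 : ℝ) : ℂ) * Complex.I)) :=
      (Continuous.tendsto (by fun_prop) 0)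
    simp only [Complex.ofReal_zero, zero_mul, add_zero] at h2
    exact h2.mono_left nhdsWithin_le_nhds
  have h3 : ∀ᶠ t : ℝ in 𝓝[≠] 0, x.im + t ≠ b := by
    by_cases hb : x.im = b
    · filter_upwards [self_mem_nhdsWithin] with t ht h4
      exact ht (by rw [mem_singleton_iff]; linarith)
    · have h4 : Tendsto (fun t : ℝ => x.im + t) (𝓝 0) (𝓝 (x.im + 0)) :=
        (Continuous.tendsto (by fun_prop) 0)
      rw [add_zero] at h4
      exact (h4.eventually_ne hb).filter_mono nhdsWithin_le_nhds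
  have h5 : ∀ᶠ t : ℝ in 𝓝[≠] 0, u (x + t * Complex.I) = v (x + t * Complex.I) := by
    filter_upwards [h1.eventually h, h3] with t ht ht'
    exact ht (by simpa using ht')
  exact tendsto_nhds_unique_of_eventuallyEq (hu.tendsto.comp h1) (hv.tendsto.comp h1) h5

theorem cls : CLS := by
  intro b δ κ₀ γ Γ A hb hκ₀ hO hA hγ
  have hδ := hO.hδ
  set F := rem Γ with hF
  have hFan : AnalyticOnNhd ℂ F (DD κ₀ b δ) := by
    intro x₀ hx₀
    obtain ⟨f, hf, hev⟩ := aout_loc hO hA hx₀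
    exact hf.congr ((rem_eq_of hf hev).mono fun x hx => hx.symm)
  have hFΓ : ∀ x ∈ DD κ₀ b δ, (∀ k : ℤ, x ≠ xi b k) → F x = Γ x := by
    intro x hx hk
    have hU : {x : ℂ | -κ₀ < x.im ∧ x.im < b + δ ∧ ∀ k : ℤ, x ≠ xi b k} ∈ 𝓝 x := by
      filter_upwards [(isOpen_DD κ₀ b δ).mem_nhds hx, nhds_xi hk] with y hy hy'
      exact ⟨hy.1, hy.2, hy'⟩
    exact (rem_eq_of (hO.dΓ.analyticAt hU) (Eventually.of_forall fun _ => rfl)).self_of_nhds
  have hk_of_im : ∀ x : ℂ, x.im ≠ b → ∀ k : ℤ, x ≠ xi b k := by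
    intro x hx k hk
    exact hx (by rw [hk, xi_im])
  -- periodicity of `F`
  have hper : ∀ x ∈ DD κ₀ b δ, F (x + 1) = F x := by
    intro x hx
    have hx1 : x + 1 ∈ DD κ₀ b δ := ⟨by simpa using hx.1, by simpa using hx.2⟩
    refine eq_off_line (u := fun y => F (y + 1)) (v := F) b ?_ (hFan x hx).continuousAt ?_
    · exact ContinuousAt.comp' (f := fun y : ℂ => y + 1) (hFan _ hx1).continuousAt (by fun_prop)
    · filter_upwards [(isOpen_DD κ₀ b δ).mem_nhds hx] with y hy hyb
      have hy1 : y + 1 ∈ DD κ₀ b δ := ⟨by simpa using hy.1, by simpa using hy.2⟩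
      rw [hFΓ _ hy1 (hk_of_im _ (by simpa using hyb)), hFΓ _ hy (hk_of_im _ hyb),
        hO.per y hy.1 hy.2]
  have him : ∀ x : ℂ, (2 * b * Complex.I - x).im = 2 * b - x.im := by
    intro x
    simp
  have hrefl : ∀ x : ℂ, |x.im - b| < min δ b → F (2 * b * Complex.I - x) = F x := by
    intro x hx
    have hmem : ∀ y : ℂ, |y.im - b| < min δ b → y ∈ DD κ₀ b δ := by
      intro y hy
      rw [abs_lt] at hy
      have h1 := min_le_left δ b
      have h2 := min_le_right δ b
      exact ⟨by linarith [hy.1], by linarith [hy.2]⟩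
    have hsym : ∀ y : ℂ, |y.im - b| < min δ b → |(2 * b * Complex.I - y).im - b| < min δ b := by
      intro y hy
      rw [him, show 2 * b - y.im - b = -(y.im - b) by ring, abs_neg]
      exact hy
    have hopen : ∀ᶠ y : ℂ in 𝓝 x, |y.im - b| < min δ b := by
      have : IsOpen {y : ℂ | |y.im - b| < min δ b} :=
        isOpen_lt (by fun_prop) continuous_const
      exact this.mem_nhds hx
    refine eq_off_line (u := fun y => F (2 * b * Complex.I - y)) (v := F) b ?_
      (hFan x (hmem x hx)).continuousAt ?_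
    · exact ContinuousAt.comp' (f := fun y : ℂ => 2 * b * Complex.I - y)
        (hFan _ (hmem _ (hsym x hx))).continuousAt (by fun_prop)
    · filter_upwards [hopen] with y hy hyb
      rw [hFΓ _ (hmem _ (hsym y hy)) (hk_of_im _ (by rw [him]; intro h; exact hyb (by linarith))),
        hFΓ _ (hmem y hy) (hk_of_im _ hyb)]
      exact hO.refl y (hy.trans_le (min_le_left _ _)) (hk_of_im _ hyb)
  have hconj : ∀ x : ℂ, |x.im| < min κ₀ b → F ((starRingEnd ℂ) x) = (starRingEnd ℂ) (F x) := by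
    set S : Set ℂ := {x | |x.im| < min κ₀ b} with hS
    have hSo : IsOpen S := isOpen_lt (by fun_prop) continuous_const
    have hSD : S ⊆ DD κ₀ b δ := by
      intro y hy
      have hy' := abs_lt.1 (show |y.im| < min κ₀ b from hy)
      have h1 := min_le_left κ₀ b
      have h2 := min_le_right κ₀ b
      exact ⟨by linarith [hy'.1], by linarith [hy'.2]⟩
    have hSc : IsPreconnected S := by
      apply Convex.isPreconnected
      have h1 : Convex ℝ {x : ℂ | -(min κ₀ b) < x.im} := convex_halfSpace_im_gt _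
      have h2 : Convex ℝ {x : ℂ | x.im < min κ₀ b} := convex_halfSpace_im_lt _
      have h3 : S = {x : ℂ | -(min κ₀ b) < x.im} ∩ {x : ℂ | x.im < min κ₀ b} := by
        ext y
        simp only [hS, mem_setOf_eq, mem_inter_iff, abs_lt]
      rw [h3]
      exact h1.inter h2
    have hSs : ∀ y ∈ S, (starRingEnd ℂ) y ∈ S := by
      intro y hy
      simpa [hS] using hy
    have hg : AnalyticOnNhd ℂ (fun y => (starRingEnd ℂ) (F ((starRingEnd ℂ) y))) S := by
      refine DifferentiableOn.analyticOnNhd (fun y hy => ?_) hSo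
      have h1 : DifferentiableAt ℂ F ((starRingEnd ℂ) y) :=
        (hFan _ (hSD (hSs y hy))).differentiableAt
      exact (differentiableAt_conj_conj_iff.2 h1).differentiableWithinAt
    have h0 : (0 : ℂ) ∈ S := by simp [hS, hκ₀, hb]
    have hreal : ∀ t : ℝ, (fun y => (starRingEnd ℂ) (F ((starRingEnd ℂ) y))) (t : ℂ) = F t := by
      intro t
      have htS : (t : ℂ) ∈ S := by simp [hS, hκ₀, hb]
      simp only [Complex.conj_ofReal]
      rw [hFΓ _ (hSD htS) (hk_of_im _ (by simpa using hb.ne)), hO.eq _ (by simpa using hκ₀),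
        Complex.conj_eq_iff_im, hγ]
    have hfreq : ∃ᶠ z in 𝓝[≠] (0 : ℂ),
        (fun y => (starRingEnd ℂ) (F ((starRingEnd ℂ) y))) z = F z := by
      have h1 : Tendsto (fun t : ℝ => (t : ℂ)) (𝓝[≠] 0) (𝓝[≠] (0 : ℂ)) := by
        refine tendsto_nhdsWithin_of_tendsto_nhds_of_eventually_within _ ?_ ?_
        · have h2 : Tendsto (fun t : ℝ => (t : ℂ)) (𝓝 0) (𝓝 ((0 : ℝ) : ℂ)) :=
            Complex.continuous_ofReal.tendsto 0
          rw [Complex.ofReal_zero] at h2
          exact h2.mono_left nhdsWithin_le_nhds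
        · filter_upwards [self_mem_nhdsWithin] with t ht
          simpa using ht
      exact h1.frequently (Eventually.of_forall hreal).frequently
    have heq := hg.eqOn_of_preconnected_of_frequently_eq
      (fun y hy => hFan y (hSD hy)) hSc h0 hfreq
    intro x hx
    have h1 := heq (show x ∈ S from hx)
    simp only at h1
    rw [← h1, Complex.conj_conj]
  -- the maximum
  have hcont : ContinuousOn F (Icc (0 : ℝ) 1 ×ℂ Icc (0 : ℝ) b) := by
    intro x hx
    have hx' : x ∈ DD κ₀ b δ := by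
      have h1 := hx.2
      exact ⟨by linarith [h1.1], by linarith [h1.2]⟩
    exact (hFan x hx').continuousAt.continuousWithinAt
  obtain ⟨x₁, hx₁, hmax⟩ := (isCompact_Icc.reProdIm isCompact_Icc).exists_isMaxOn
    ⟨0, by simp [Complex.mem_reProdIm, hb.le]⟩ hcont.norm
  have hmax' : ∀ x : ℂ, 0 ≤ x.im → x.im ≤ b → ‖F x‖ ≤ ‖F x₁‖ := by
    intro x h0 h1
    have h2 : F (x + ((-⌊x.re⌋ : ℤ) : ℂ)) = F x :=
      per_int (b := b) (δ := δ) (κ₀ := κ₀) (fun x h1 h2 => hper x ⟨h1, h2⟩) _ x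
        (by linarith) (by linarith)
    rw [← h2]
    refine hmax ?_
    rw [Complex.mem_reProdIm]
    simp only [Complex.add_re, Complex.add_im, Complex.intCast_re, Complex.intCast_im, add_zero]
    push_cast
    refine ⟨⟨?_, ?_⟩, h0, h1⟩
    · linarith [Int.floor_le x.re]
    · linarith [Int.lt_floor_add_one x.re]
  have hx₁' : 0 ≤ x₁.im ∧ x₁.im ≤ b := hx₁.2
  have hx₁D : x₁ ∈ DD κ₀ b δ := ⟨by linarith [hx₁'.1], by linarith [hx₁'.2]⟩
  have hloc : ∀ᶠ x in 𝓝 x₁, ‖F x‖ ≤ ‖F x₁‖ := by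
    have hcim : Tendsto Complex.im (𝓝 x₁) (𝓝 x₁.im) := Complex.continuous_im.tendsto _
    rcases hx₁'.1.eq_or_lt with h0 | h0
    · have h1 : ∀ᶠ x : ℂ in 𝓝 x₁, x.im ∈ Ioo (-(min κ₀ b)) (min κ₀ b) := by
        refine hcim.eventually (Ioo_mem_nhds ?_ ?_)
        · rw [← h0]; simp [hκ₀, hb]
        · rw [← h0]; simp [hκ₀, hb]
      filter_upwards [h1] with x hx
      rcases le_total 0 x.im with h2 | h2
      · exact hmax' x h2 (hx.2.le.trans (min_le_right _ _))
      · have h3 := hconj x (abs_lt.2 hx)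
        have h4 : ‖F x‖ = ‖F ((starRingEnd ℂ) x)‖ := by rw [h3, RCLike.norm_conj]
        rw [h4]
        refine hmax' _ ?_ ?_
        · rw [Complex.conj_im]; linarith
        · rw [Complex.conj_im]
          linarith [hx.1, min_le_right κ₀ b]
    · rcases hx₁'.2.eq_or_lt with h1 | h1
      · have h2 : ∀ᶠ x : ℂ in 𝓝 x₁, x.im ∈ Ioo (b - min δ b) (b + min δ b) := by
          refine hcim.eventually (Ioo_mem_nhds ?_ ?_)
          · rw [h1]; simp [hδ, hb]
          · rw [h1]; simp [hδ, hb]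
        filter_upwards [h2] with x hx
        have hmb := min_le_right δ b
        rcases le_total x.im b with h3 | h3
        · exact hmax' x (by linarith [hx.1]) h3
        · have h4 := hrefl x (by rw [abs_lt]; constructor <;> linarith [hx.1, hx.2])
          rw [← h4]
          refine hmax' _ ?_ ?_
          · simp only [Complex.sub_im, Complex.mul_im, Complex.mul_re, Complex.I_re, Complex.I_im]
            simp
            linarith [hx.2]
          · simp only [Complex.sub_im, Complex.mul_im, Complex.mul_re, Complex.I_re, Complex.I_im]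
            simp
            linarith
      · filter_upwards [hcim.eventually (Ioo_mem_nhds h0 h1)] with x hx
        exact hmax' x hx.1.le hx.2.le
  have hconst := const_of_isLocalMax (isPreconnected_DD κ₀ b δ) hFan hx₁D hloc
  refine ⟨F x₁, fun x => ?_⟩
  have hxD : (x : ℂ) ∈ DD κ₀ b δ := by
    constructor
    · simpa using hκ₀
    · simp; linarith
  rw [← hO.eq x (by simpa using hκ₀), ← hFΓ x hxD (hk_of_im _ (by simpa using hb.ne)),
    hconst _ hxD]

end Vale.Agent.P097.H809
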