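import Vale.Agent.P097.H809.Cls

/-! # P097 / H809 : S12, the first line argument -/

set_option linter.all false

open scoped Topology
open Filter Set

namespace Vale.Agent.P097.H809

open Vale.Agent.P097.LR

theorem eqOn_convex {D : Set ℂ} (hDo : IsOpen D) (hDc : Convex ℝ D) {f g : ℂ → ℂ}
    (hf : DifferentiableOn ℂ f D) (hg : DifferentiableOn ℂ g D) {z₀ : ℂ} (hz₀ : z₀ ∈ D)
    (h : ∀ᶠ z in 𝓝 z₀, f z = g z) : ∀ z ∈ D, f z = g z :=
  (hf.analyticOnNhd hDo).eqOn_of_preconnected_of_eventuallyEq (hg.analyticOnNhd hDo)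
    hDc.isPreconnected hz₀ h

/-- horizontal strips -/
def Str (p q : ℝ) : Set ℂ := {x | p < x.im ∧ x.im < q}

theorem isOpen_Str (p q : ℝ) : IsOpen (Str p q) :=
  (isOpen_lt continuous_const Complex.continuous_im).inter
    (isOpen_lt Complex.continuous_im continuous_const)

theorem convex_Str (p q : ℝ) : Convex ℝ (Str p q) :=
  (convex_halfSpace_im_gt (r := p)).inter (convex_halfSpace_im_lt (r := q))

theorem eps_pos : 0 < eps := by unfold eps; norm_num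

theorem abs_im_sub_le (x y : ℂ) : |x.im - y.im| ≤ ‖x - y‖ := by
  rw [← Complex.sub_im]
  exact Complex.abs_im_le_norm _

/-- V-lemma and kink lemma together -/
theorem kink_ext (hVL : VL) (hK0 : K0) {κ β ρ : ℝ} {G : ℂ → ℂ → ℂ} (hκ : 0 < κ) (hρ : 0 < ρ)
    (h2 : 2 * ρ ≤ β) (hG : JD G (RG κ β (2 * ρ)))
    (hM : ∃ M : ℝ, ∀ p ∈ RG κ β (2 * ρ), ‖G p.1 p.2‖ ≤ M)
    (hper : ∀ t w : ℂ, (t, w) ∈ RG κ β (2 * ρ) → G (t + 1) w = G t w)
    (hvan : ∀ n : ℕ, 0 < n → ∀ p : ℤ, p ≠ 0 → |(p : ℝ) / n| < 2 * ρ →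
      ∫ t in (0 : ℝ)..1, G t ((p : ℝ) / n : ℝ) *
        Complex.exp (2 * Real.pi * Complex.I * n * t) = 0)
    (x₀ : ℂ) (σ : ℝ) (hx₀ : x₀.im = β + eps * ρ) (hσ : 100 * ρ < σ) (hσ' : σ ≤ x₀.im)
    (hG2 : JD G {p | ‖p.2‖ < 2 * ρ ∧ ‖p.1 - x₀‖ < σ ∧ p.1.im < β}) :
    ∃ F : ℂ → ℂ, DifferentiableOn ℂ F (Metric.ball x₀ (ρ / 50)) ∧
      ∀ s ∈ Metric.ball x₀ (ρ / 50), s.im < β → F s = G s 0 := by
  obtain ⟨H, Q, hO⟩ := hVL κ β ρ G hκ hρ h2 hG hM hper hvan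
  have hβ : x₀.im - eps * ρ = β := by rw [hx₀]; ring
  have him : ∀ s : ℂ, ‖s - x₀‖ < σ → 0 < s.im := by
    intro s hs
    have h1 := (abs_im_sub_le s x₀).trans_lt hs
    rw [abs_lt] at h1
    linarith [h1.1]
  have g1 : JD (fun s w => G s w - H s w)
      {p | ‖p.2‖ < ρ ∧ ‖p.1 - x₀‖ < σ ∧ p.1.im < x₀.im - eps * ρ} := by
    refine DifferentiableOn.sub (hG2.mono ?_) (hO.dH.mono ?_)
    · rintro ⟨t, w⟩ ⟨h1, h3, h4⟩
      rw [hβ] at h4
      simp only at h1 h3 h4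
      exact ⟨by simp only; linarith, h3, h4⟩
    · rintro ⟨t, w⟩ ⟨h1, h3, h4⟩
      refine ⟨h1, ?_⟩
      have := him t h3
      show -κ < t.im
      linarith
  have g2 : JD Q {p | ‖p.2‖ < ρ ∧ p.1.im < x₀.im - eps * ρ} := by
    rw [hβ]
    exact hO.dQ
  have g3 : ∀ s w : ℂ, ‖w‖ < ρ → ‖s - x₀‖ < σ / 2 → s.im + |w.im| / 2 < x₀.im - eps * ρ →
      Q (s + w / 2) w - Q (s - w / 2) w = w * (G s w - H s w) := by
    intro s w hw hs h3
    rw [hβ] at h3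
    have h4 := him s (by linarith [norm_nonneg (s - x₀)])
    exact hO.eq s w hw (by linarith) h3
  obtain ⟨F, hF, hFe⟩ := hK0 x₀ σ ρ (fun s w => G s w - H s w) Q hρ hσ g1 g2 g3
  refine ⟨fun s => F s + H s 0, ?_, ?_⟩
  · refine hF.add ?_
    have h1 : DifferentiableOn ℂ (fun s : ℂ => ((s, (0 : ℂ)) : ℂ × ℂ))
        (Metric.ball x₀ (ρ / 50)) := by fun_prop
    refine DifferentiableOn.comp (g := fun p : ℂ × ℂ => H p.1 p.2) hO.dH h1 ?_
    intro s hs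
    refine ⟨by simpa using hρ, ?_⟩
    have h2 : ‖s - x₀‖ < σ := by
      rw [Metric.mem_ball, dist_eq_norm] at hs
      linarith
    have := him s h2
    show -κ < s.im
    linarith
  · intro s hs hsβ
    have h1 : F s = G s 0 - H s 0 := hFe s hs (by rw [hβ]; exact hsβ)
    show F s + H s 0 = G s 0
    rw [h1]
    ring

/-- extension of a function across the upper boundary of a strip, uniform radius -/
theorem extend_strip {p β c : ℝ} (hc : 0 < c) (hp : p < β) {Γ : ℂ → ℂ}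
    (hΓ : DifferentiableOn ℂ Γ (Str p β))
    (h : ∀ x₀ : ℂ, x₀.im = β → ∃ F : ℂ → ℂ, DifferentiableOn ℂ F (Metric.ball x₀ c) ∧
      ∀ s ∈ Metric.ball x₀ c, p < s.im → s.im < β → F s = Γ s) :
    ∃ Γ' : ℂ → ℂ, DifferentiableOn ℂ Γ' (Str p (β + c)) ∧ ∀ s ∈ Str p β, Γ' s = Γ s := by
  choose! F hF hFe using h
  set ctr : ℂ → ℂ := fun s => (s.re : ℂ) + β * Complex.I with hctr
  have hcim : ∀ s, (ctr s).im = β := by intro s; simp [hctr]
  have hcre : ∀ s, (ctr s).re = s.re := by intro s; simp [hctr]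
  have hdist : ∀ s : ℂ, dist s (ctr s) = |s.im - β| := by
    intro s
    rw [Complex.dist_eq]
    have : s - ctr s = ((s.im - β : ℝ) : ℂ) * Complex.I := by
      apply Complex.ext <;> simp [hctr]
    rw [this, norm_mul, Complex.norm_I, mul_one, Complex.norm_real, Real.norm_eq_abs]
  set Γ' : ℂ → ℂ := fun s => if s.im < β then Γ s else F (ctr s) s with hΓ'
  -- uniqueness on the intersection of two balls
  have huniq : ∀ x₁ x₂ : ℂ, x₁.im = β → x₂.im = β → ∀ s ∈ Metric.ball x₁ c ∩ Metric.ball x₂ c,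
      F x₁ s = F x₂ s := by
    intro x₁ x₂ h1 h2 s hs
    have hDo : IsOpen (Metric.ball x₁ c ∩ Metric.ball x₂ c) :=
      Metric.isOpen_ball.inter Metric.isOpen_ball
    have hDc : Convex ℝ (Metric.ball x₁ c ∩ Metric.ball x₂ c) :=
      (convex_ball x₁ c).inter (convex_ball x₂ c)
    -- the midpoint of the centres lies in both balls, move it down a little
    set z : ℂ := (x₁ + x₂) / 2 with hz
    have hd12 : dist x₁ x₂ < 2 * c := by
      have h3 := dist_triangle x₁ s x₂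
      have h4 := hs.1
      have h5 := hs.2
      rw [Metric.mem_ball] at h4 h5
      rw [dist_comm x₁ s] at h3
      linarith
    have hz1 : dist z x₁ < c := by
      rw [dist_eq_norm] at hd12 ⊢
      have : z - x₁ = -((x₁ - x₂) / 2) := by rw [hz]; ring
      rw [this, norm_neg, norm_div]
      simp only [Complex.norm_ofNat]
      linarith
    have hz2 : dist z x₂ < c := by
      rw [dist_eq_norm] at hd12 ⊢
      have : z - x₂ = (x₁ - x₂) / 2 := by rw [hz]; ring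
      rw [this, norm_div]
      simp only [Complex.norm_ofNat]
      linarith
    have hzim : z.im = β := by
      have h3 : z.im = (x₁.im + x₂.im) / 2 := by
        rw [hz]
        simp
      rw [h3, h1, h2]
      ring
    have hev : ∀ᶠ t : ℝ in 𝓝[>] 0, z - t * Complex.I ∈ Metric.ball x₁ c ∩ Metric.ball x₂ c := by
      have h3 : Tendsto (fun t : ℝ => z - t * Complex.I) (𝓝 0) (𝓝 (z - ((0 : ℝ) : ℂ) * Complex.I)) :=
        Continuous.tendsto (by fun_prop) 0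
      simp only [Complex.ofReal_zero, zero_mul, sub_zero] at h3
      exact (h3.eventually (hDo.mem_nhds ⟨hz1, hz2⟩)).filter_mono nhdsWithin_le_nhds
    have hev2 : ∀ᶠ t : ℝ in 𝓝[>] 0, t < β - p :=
      (eventually_lt_nhds (show (0 : ℝ) < β - p by linarith)).filter_mono nhdsWithin_le_nhds
    obtain ⟨t, ⟨ht1, ht2⟩, ht3⟩ := ((hev.and hev2).and self_mem_nhdsWithin).exists
    have ht3' : 0 < t := ht3
    have himt : (z - t * Complex.I).im = β - t := by simp [hzim]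
    have hnear : ∀ᶠ y in 𝓝 (z - t * Complex.I), y ∈ Metric.ball x₁ c ∩ Metric.ball x₂ c ∧
        y ∈ Str p β := by
      refine (hDo.eventually_mem ht1).and ((isOpen_Str p β).eventually_mem ?_)
      exact ⟨by rw [himt]; linarith, by rw [himt]; linarith⟩
    refine eqOn_convex hDo hDc ((hF x₁ h1).mono inter_subset_left)
      ((hF x₂ h2).mono inter_subset_right) ht1 ?_ s hs
    filter_upwards [hnear] with y hy
    rw [hFe x₁ h1 y hy.1.1 hy.2.1 hy.2.2, hFe x₂ h2 y hy.1.2 hy.2.1 hy.2.2]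
  refine ⟨Γ', ?_, ?_⟩
  · intro s hs
    rcases lt_or_ge s.im β with hsβ | hsβ
    · have h1 : Γ' =ᶠ[𝓝 s] Γ := by
        filter_upwards [(isOpen_lt Complex.continuous_im continuous_const).mem_nhds hsβ] with y hy
        simp only [hΓ']
        rw [if_pos hy]
      have h2 : DifferentiableAt ℂ Γ s :=
        (hΓ s ⟨hs.1, hsβ⟩).differentiableAt ((isOpen_Str p β).mem_nhds ⟨hs.1, hsβ⟩)
      exact (h1.differentiableAt_iff.2 h2).differentiableWithinAt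
    · have hb : s ∈ Metric.ball (ctr s) c := by
        rw [Metric.mem_ball, hdist, abs_lt]
        constructor <;> linarith [hs.2]
      have hev : ∀ᶠ y in 𝓝 s, Γ' y = F (ctr s) y := by
        have h1 : ∀ᶠ y in 𝓝 s, y ∈ Metric.ball (ctr s) c ∧ y ∈ Str p (β + c) :=
          (Metric.isOpen_ball.eventually_mem hb).and ((isOpen_Str p (β + c)).eventually_mem hs)
        filter_upwards [h1] with y hy
        rcases lt_or_ge y.im β with hyβ | hyβ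
        · simp only [hΓ']
          rw [if_pos hyβ, hFe (ctr s) (hcim s) y hy.1 hy.2.1 hyβ]
        · simp only [hΓ']
          rw [if_neg (not_lt.2 hyβ)]
          refine huniq _ _ (hcim y) (hcim s) y ⟨?_, hy.1⟩
          rw [Metric.mem_ball, hdist, abs_lt]
          constructor <;> linarith [hy.2.2]
      have h2 : DifferentiableAt ℂ (F (ctr s)) s :=
        (hF (ctr s) (hcim s) s hb).differentiableAt (Metric.isOpen_ball.mem_nhds hb)
      have h3 : Γ' =ᶠ[𝓝 s] F (ctr s) := hev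
      exact (h3.differentiableAt_iff.2 h2).differentiableWithinAt
  · intro s hs
    simp only [hΓ']
    rw [if_pos hs.2]


/-- periodicity from the real line -/
theorem per_of_real {κ₀ β : ℝ} (hκ₀ : 0 < κ₀) (hβ : κ₀ ≤ β) {γ Γ : ℂ → ℂ}
    (hΓ : DifferentiableOn ℂ Γ (Str (-κ₀) β)) (hΓγ : ∀ x : ℂ, |x.im| < κ₀ → Γ x = γ x)
    (hγper : ∀ x : ℂ, |x.im| < κ₀ → γ (x + 1) = γ x) :
    ∀ x ∈ Str (-κ₀) β, Γ (x + 1) = Γ x := by
  have h0 : (0 : ℂ) ∈ Str (-κ₀) β := by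
    refine ⟨by simpa using hκ₀, ?_⟩
    rw [Complex.zero_im]
    linarith
  have hm : ∀ x ∈ Str (-κ₀) β, x + 1 ∈ Str (-κ₀) β := fun x hx =>
    ⟨by simpa using hx.1, by simpa using hx.2⟩
  refine eqOn_convex (isOpen_Str _ _) (convex_Str _ _) (f := fun x => Γ (x + 1)) ?_ hΓ h0 ?_
  · exact hΓ.comp (by fun_prop) hm
  · have h3 : ∀ᶠ y : ℂ in 𝓝 0, y ∈ Str (-κ₀) κ₀ := (isOpen_Str _ _).eventually_mem
      ⟨by simpa using hκ₀, by simpa using hκ₀⟩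
    filter_upwards [h3] with y hy
    have hy' : |y.im| < κ₀ := abs_lt.2 hy
    rw [hΓγ (y + 1) (by simpa using hy'), hΓγ y hy', hγper y hy']

/-- one step of the extension below the line -/
theorem stepA (hVL : VL) (hK0 : K0) (hG1 : GREG1) {b κ r : ℝ} {Z : ℂ → ℂ → ℂ} {s₁ : Fin 2 → ℂ}
    {tI : Fin 2 → ℂ → ℂ} {U : Fin 2 → ℂ → ℂ → ℂ} (hLF : LF b κ r Z s₁ tI U) {X₀ : ℝ → ℝ → ℝ}
    (hRX : RX r Z X₀) {κ₀ : ℝ} {γ : ℂ → ℂ} (hκ₀ : 0 < κ₀) (hκ₀κ : κ₀ ≤ κ)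
    (hγ : DifferentiableOn ℂ γ {x | |x.im| < κ₀})
    (hγper : ∀ x : ℂ, |x.im| < κ₀ → γ (x + 1) = γ x) (hvan : Van r X₀ γ)
    {β : ℝ} (hβ0 : κ₀ ≤ β) (hβb : β < b) {Γ : ℂ → ℂ} (hΓ : DifferentiableOn ℂ Γ (Str (-κ₀) β))
    (hΓγ : ∀ x : ℂ, |x.im| < κ₀ → Γ x = γ x) :
    ∃ c : ℝ, 0 < c ∧ ∃ Γ' : ℂ → ℂ, DifferentiableOn ℂ Γ' (Str (-κ₀) (β + c)) ∧
      ∀ x : ℂ, |x.im| < κ₀ → Γ' x = γ x := by
  have hβ : 0 < β := hκ₀.trans_le hβ0
  have hΓper := per_of_real hκ₀ hβ0 hΓ hΓγ hγper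
  obtain ⟨ρ₀, hρ₀, hG⟩ := hG1 b κ r Z s₁ tI U hLF X₀ hRX κ₀ β Γ hκ₀ hκ₀κ hβ hβb hΓ
    (fun x h1 h2 => hΓper x ⟨h1, h2⟩)
  have hr := hLF.hr
  set ρ : ℝ := min (ρ₀ / 2) (min (r / 2) (β / 200)) with hρdef
  have hρ : 0 < ρ := lt_min (by linarith) (lt_min (by linarith) (by linarith))
  have hρ1 : ρ ≤ ρ₀ / 2 := min_le_left _ _
  have hρ2 : ρ ≤ r / 2 := (min_le_right _ _).trans (min_le_left _ _)
  have hρ3 : ρ ≤ β / 200 := (min_le_right _ _).trans (min_le_right _ _)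
  have heps : eps * ρ ≤ ρ / 1000 := by unfold eps; linarith
  have heps0 : 0 < eps * ρ := mul_pos eps_pos hρ
  obtain ⟨G, hGd, ⟨M, hM⟩, hGper, hG0, hGX⟩ := hG ρ hρ (by linarith)
  have key : ∀ x₀ : ℂ, x₀.im = β → ∃ F : ℂ → ℂ, DifferentiableOn ℂ F (Metric.ball x₀ (ρ / 50)) ∧
      ∀ s ∈ Metric.ball x₀ (ρ / 50), -κ₀ < s.im → s.im < β → F s = Γ s := by
    intro x₀ hx₀
    obtain ⟨F, hF, hFe⟩ := kink_ext hVL hK0 (κ := κ₀ / 2) (β := β - eps * ρ) (ρ := ρ) (G := G)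
      (by linarith) hρ (by linarith)
      (hGd.mono fun p hp => ⟨hp.1, hp.2.1, by linarith [hp.2.2, abs_nonneg p.2.im]⟩)
      ⟨M, fun p hp => hM p.1 p.2 hp.1 hp.2.1 (by linarith [hp.2.2, abs_nonneg p.2.im])⟩
      (fun t w hp => hGper t w hp.1 hp.2.1 (by
        have h1 : t.im + |w.im| / 2 < β - eps * ρ := hp.2.2
        linarith [abs_nonneg w.im]))
      (fun n hn p hp hnp => by
        rw [← hvan n hn p hp (by linarith)]
        refine intervalIntegral.integral_congr fun t _ => ?_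
        rw [hGX t _ hnp, hΓγ _ (by simpa using hκ₀)])
      x₀ β (by rw [hx₀]; ring) (by linarith) (by rw [hx₀])
      (hGd.mono fun p hp => ⟨hp.1, by
        have h1 := (abs_im_sub_le p.1 x₀).trans_lt hp.2.1
        rw [abs_lt, hx₀] at h1
        linarith [h1.1], hp.2.2⟩)
    refine ⟨F, hF, fun s hs h1 h2 => ?_⟩
    -- identity theorem on the half disc
    have hDo : IsOpen (Metric.ball x₀ (ρ / 50) ∩ Str (-κ₀) β) :=
      Metric.isOpen_ball.inter (isOpen_Str _ _)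
    have hDc : Convex ℝ (Metric.ball x₀ (ρ / 50) ∩ Str (-κ₀) β) :=
      (convex_ball _ _).inter (convex_Str _ _)
    set z : ℂ := x₀ - ((ρ / 100 : ℝ) : ℂ) * Complex.I with hz
    have hzim : z.im = β - ρ / 100 := by rw [hz]; simp [hx₀]
    have hzb : z ∈ Metric.ball x₀ (ρ / 50) := by
      rw [Metric.mem_ball, dist_eq_norm]
      have : z - x₀ = -(((ρ / 100 : ℝ) : ℂ) * Complex.I) := by rw [hz]; ring
      rw [this, norm_neg, norm_mul, Complex.norm_I, mul_one, Complex.norm_real, Real.norm_eq_abs,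
        abs_of_pos (by linarith)]
      linarith
    have hzD : z ∈ Metric.ball x₀ (ρ / 50) ∩ Str (-κ₀) β :=
      ⟨hzb, by rw [hzim]; linarith, by rw [hzim]; linarith⟩
    refine eqOn_convex hDo hDc (hF.mono inter_subset_left) (hΓ.mono inter_subset_right) hzD ?_ s
      ⟨hs, h1, h2⟩
    have h3 : ∀ᶠ y in 𝓝 z, y ∈ Metric.ball x₀ (ρ / 50) ∧ y ∈ Str (-(κ₀ / 2)) (β - eps * ρ) := by
      refine (Metric.isOpen_ball.eventually_mem hzb).and ((isOpen_Str _ _).eventually_mem ?_)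
      exact ⟨by rw [hzim]; linarith, by rw [hzim]; linarith⟩
    filter_upwards [h3] with y hy
    rw [hFe y hy.1 hy.2.2, hG0 y hy.2.1 hy.2.2]
  obtain ⟨Γ', hΓ', hΓ'e⟩ := extend_strip (p := -κ₀) (β := β) (c := ρ / 50) (by linarith)
    (by linarith) hΓ key
  refine ⟨ρ / 50, by linarith, Γ', hΓ', fun x hx => ?_⟩
  have hx' := abs_lt.1 hx
  rw [hΓ'e x ⟨hx'.1, by linarith [hx'.2]⟩, hΓγ x hx]

/-- extension up to the line -/
theorem stepSup (hVL : VL) (hK0 : K0) (hG1 : GREG1) {b κ r : ℝ} {Z : ℂ → ℂ → ℂ} {s₁ : Fin 2 → ℂ}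
    {tI : Fin 2 → ℂ → ℂ} {U : Fin 2 → ℂ → ℂ → ℂ} (hLF : LF b κ r Z s₁ tI U) {X₀ : ℝ → ℝ → ℝ}
    (hRX : RX r Z X₀) {κ₀ : ℝ} {γ : ℂ → ℂ} (hκ₀ : 0 < κ₀) (hκ₀κ : κ₀ ≤ κ)
    (hγ : DifferentiableOn ℂ γ {x | |x.im| < κ₀})
    (hγper : ∀ x : ℂ, |x.im| < κ₀ → γ (x + 1) = γ x) (hvan : Van r X₀ γ) :
    ∃ Γ : ℂ → ℂ, DifferentiableOn ℂ Γ (Str (-κ₀) b) ∧ ∀ x : ℂ, |x.im| < κ₀ → Γ x = γ x := by
  have hκb := hLF.hκb
  have hκ₀b : κ₀ < b := by linarith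
  set S : Set ℝ := {β | κ₀ ≤ β ∧ β ≤ b ∧ ∃ Γ : ℂ → ℂ, DifferentiableOn ℂ Γ (Str (-κ₀) β) ∧
    ∀ x : ℂ, |x.im| < κ₀ → Γ x = γ x} with hS
  have hne : κ₀ ∈ S := by
    refine ⟨le_rfl, hκ₀b.le, γ, ?_, fun x _ => rfl⟩
    exact hγ.mono fun x hx => abs_lt.2 ⟨hx.1, hx.2⟩
  have hbdd : BddAbove S := ⟨b, fun β hβ => hβ.2.1⟩
  set B := sSup S with hB
  have hB0 : κ₀ ≤ B := le_csSup hbdd hne
  have hBb : B ≤ b := csSup_le ⟨κ₀, hne⟩ fun β hβ => hβ.2.1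
  -- glueing
  have hex : ∀ β : ℝ, β ∈ S → ∃ Γ : ℂ → ℂ, DifferentiableOn ℂ Γ (Str (-κ₀) β) ∧
    ∀ x : ℂ, |x.im| < κ₀ → Γ x = γ x := fun β hβ => hβ.2.2
  choose! Γs hΓs hΓse using hex
  have huniq : ∀ β₁ ∈ S, ∀ β₂ ∈ S, ∀ x : ℂ, -κ₀ < x.im → x.im < β₁ → x.im < β₂ →
      Γs β₁ x = Γs β₂ x := by
    intro β₁ h1 β₂ h2 x hx0 hx1 hx2
    have hsub1 : Str (-κ₀) (min β₁ β₂) ⊆ Str (-κ₀) β₁ := fun y hy =>
      ⟨hy.1, hy.2.trans_le (min_le_left _ _)⟩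
    have hsub2 : Str (-κ₀) (min β₁ β₂) ⊆ Str (-κ₀) β₂ := fun y hy =>
      ⟨hy.1, hy.2.trans_le (min_le_right _ _)⟩
    have h0 : (0 : ℂ) ∈ Str (-κ₀) (min β₁ β₂) := by
      refine ⟨by simpa using hκ₀, ?_⟩
      rw [Complex.zero_im]
      exact lt_min (hκ₀.trans_le h1.1) (hκ₀.trans_le h2.1)
    refine eqOn_convex (isOpen_Str _ _) (convex_Str _ _) ((hΓs β₁ h1).mono hsub1)
      ((hΓs β₂ h2).mono hsub2) h0 ?_ x ⟨hx0, lt_min hx1 hx2⟩
    have h3 : ∀ᶠ y : ℂ in 𝓝 0, y ∈ Str (-κ₀) κ₀ := (isOpen_Str _ _).eventually_mem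
      ⟨by simpa using hκ₀, by simpa using hκ₀⟩
    filter_upwards [h3] with y hy
    rw [hΓse β₁ h1 y (abs_lt.2 hy), hΓse β₂ h2 y (abs_lt.2 hy)]
  have hlt : ∀ y : ℝ, y < B → ∃ β ∈ S, y < β := fun y hy => exists_lt_of_lt_csSup ⟨κ₀, hne⟩ hy
  have hPB : ∃ Γ : ℂ → ℂ, DifferentiableOn ℂ Γ (Str (-κ₀) B) ∧
      ∀ x : ℂ, |x.im| < κ₀ → Γ x = γ x := by
    choose! sel hsel hsel' using hlt
    refine ⟨fun x => Γs (sel x.im) x, ?_, ?_⟩
    · intro x hx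
      have h1 := hsel x.im hx.2
      have h2 := hsel' x.im hx.2
      have h3 : ∀ᶠ y in 𝓝 x, y ∈ Str (-κ₀) B ∧ y ∈ Str (-κ₀) (sel x.im) :=
        ((isOpen_Str _ _).eventually_mem hx).and ((isOpen_Str _ _).eventually_mem ⟨hx.1, h2⟩)
      have h4 : (fun x => Γs (sel x.im) x) =ᶠ[𝓝 x] Γs (sel x.im) := by
        filter_upwards [h3] with y hy
        exact huniq _ (hsel y.im hy.1.2) _ h1 y hy.1.1 (hsel' y.im hy.1.2) hy.2.2
      have h5 : DifferentiableAt ℂ (Γs (sel x.im)) x :=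
        (hΓs _ h1 x ⟨hx.1, h2⟩).differentiableAt ((isOpen_Str _ _).mem_nhds ⟨hx.1, h2⟩)
      exact (h4.differentiableAt_iff.2 h5).differentiableWithinAt
    · intro x hx
      have hx' := abs_lt.1 hx
      exact hΓse _ (hsel x.im (by linarith [hx'.2])) x hx
  obtain ⟨Γ, hΓ, hΓe⟩ := hPB
  rcases hBb.eq_or_lt with h1 | h1
  · rw [← h1]
    exact ⟨Γ, hΓ, hΓe⟩
  · exfalso
    obtain ⟨c, hc, Γ', hΓ', hΓ'e⟩ := stepA hVL hK0 hG1 hLF hRX hκ₀ hκ₀κ hγ hγper hvan hB0 h1 hΓ hΓe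
    have h2 : min (B + c) b ∈ S := by
      refine ⟨le_min (by linarith) hκ₀b.le, min_le_right _ _, Γ', ?_, hΓ'e⟩
      exact hΓ'.mono fun x hx => ⟨hx.1, hx.2.trans_le (min_le_left _ _)⟩
    have h3 := le_csSup hbdd h2
    have h4 : B < min (B + c) b := lt_min (by linarith) h1
    linarith

/-- **S12** -/
theorem s12 (hVL : VL) (hK0 : K0) (hG1 : GREG1) (hG : GREG) (hP : PHI) : S12 := by
  intro b κ r Z s₁ tI U hLF X₀ hRX κ₀ γ hκ₀ hκ₀κ hγ hγper hvan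
  have hκb := hLF.hκb
  have hκ := hLF.hκ
  have hr := hLF.hr
  have hκ₀b : κ₀ < b := by linarith
  obtain ⟨Γ, hΓ, hΓγ⟩ := stepSup hVL hK0 hG1 hLF hRX hκ₀ hκ₀κ hγ hγper hvan
  have hΓper := per_of_real hκ₀ hκ₀b.le hΓ hΓγ hγper
  refine ⟨Γ, hΓ, fun x hx _ => hΓγ x hx, fun x h1 h2 => hΓper x ⟨h1, h2⟩, ?_⟩
  intro x₀ hx₀ hx₀i
  have hxi_im : ∀ k : ℤ, (xi b k).im = b := by intro k; simp [xi]
  -- the functions `Φ j`
  have hPhi : ∀ j : Fin 2, ∃ (R κ'' : ℝ) (Φ : ℂ → ℂ), 0 < R ∧ 0 < κ'' ∧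
      DifferentiableOn ℂ Φ (SB (s₁ j) (U j 0 0) R) ∧
      ∀ x : ℂ, ‖x - xi b (j : ℕ)‖ < κ'' → x.im < (xi b (j : ℕ)).im →
        Z x 0 ∈ SB (s₁ j) (U j 0 0) R ∧ Φ (Z x 0) = Γ x := by
    intro j
    refine hP _ κ r _ Z _ _ (hLF.iso j) Γ κ₀ hκ₀ (hΓ.mono ?_)
    rintro x ⟨h1, h2⟩
    have h3 := (abs_im_sub_le x (xi b (j : ℕ))).trans_lt h1
    have h4 := hxi_im (j : ℕ)
    rw [abs_lt] at h3
    push_cast at h2 h3 h4
    rw [h4] at h2 h3
    exact ⟨by linarith [h3.1], h2⟩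
  choose Rj κj Φ hRj hκj hΦd hΦe using hPhi
  -- a common radius
  set R : ℝ := min (Rj 0) (Rj 1) with hR
  have hR0 : 0 < R := lt_min (hRj 0) (hRj 1)
  have hRle : ∀ j : Fin 2, R ≤ Rj j := by
    intro j
    fin_cases j
    · exact min_le_left _ _
    · exact min_le_right _ _
  have hSB : ∀ j : Fin 2, SB (s₁ j) (U j 0 0) R ⊆ SB (s₁ j) (U j 0 0) (Rj j) := fun j ζ hζ =>
    ⟨hζ.1.trans_le (hRle j), hζ.2⟩
  -- continuity of `Z · 0` at the isotropic points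
  have hcont : ∀ j : Fin 2, ∃ κ' : ℝ, 0 < κ' ∧ ∀ x : ℂ, ‖x - xi b (j : ℕ)‖ < κ' →
      ‖Z x 0 - s₁ j‖ < R := by
    intro j
    have hI := hLF.iso j
    have hz : Z (xi b (j : ℕ)) 0 = s₁ j := by
      have h1 := hI.loc 0 0 (by simpa using hκ) (by simpa using hr)
      rw [hI.I0] at h1
      simpa using h1
    have hmem : (xi b (j : ℕ), (0 : ℂ)) ∈
        {p : ℂ × ℂ | -κ < p.1.im ∧ p.1.im < b + κ ∧ ‖p.2‖ < r} := by
      have h4 := hxi_im (j : ℕ)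
      push_cast at h4
      refine ⟨?_, ?_, by simpa using hr⟩
      · show -κ < (xi b (j : ℕ)).im
        rw [h4]; linarith
      · show (xi b (j : ℕ)).im < b + κ
        rw [h4]; linarith
    have hopen : IsOpen {p : ℂ × ℂ | -κ < p.1.im ∧ p.1.im < b + κ ∧ ‖p.2‖ < r} :=
      (isOpen_lt continuous_const (Complex.continuous_im.comp continuous_fst)).inter
        ((isOpen_lt (Complex.continuous_im.comp continuous_fst) continuous_const).inter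
          (isOpen_lt continuous_snd.norm continuous_const))
    have hc : ContinuousAt (fun p : ℂ × ℂ => Z p.1 p.2) (xi b (j : ℕ), (0 : ℂ)) :=
      (hLF.dZ.differentiableAt (hopen.mem_nhds hmem)).continuousAt
    have hc2 : ContinuousAt (fun x : ℂ => Z x 0) (xi b (j : ℕ)) :=
      ContinuousAt.comp' (f := fun x : ℂ => ((x, (0 : ℂ)) : ℂ × ℂ)) hc (by fun_prop)
    have h5 := Metric.continuousAt_iff.1 hc2 R hR0
    obtain ⟨κ', hκ', h6⟩ := h5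
    refine ⟨κ', hκ', fun x hx => ?_⟩
    have h7 := h6 (by rw [dist_eq_norm]; exact hx)
    rw [dist_eq_norm, hz] at h7
    exact h7
  choose κc hκc hcR using hcont
  set κ'' : ℝ := min (min (κj 0) (κj 1)) (min (κc 0) (κc 1)) with hκ''
  have hκ''0 : 0 < κ'' := lt_min (lt_min (hκj 0) (hκj 1)) (lt_min (hκc 0) (hκc 1))
  have hκ''1 : ∀ j : Fin 2, κ'' ≤ κj j := by
    intro j
    fin_cases j
    · exact (min_le_left _ _).trans (min_le_left _ _)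
    · exact (min_le_left _ _).trans (min_le_right _ _)
  have hκ''2 : ∀ j : Fin 2, κ'' ≤ κc j := by
    intro j
    fin_cases j
    · exact (min_le_right _ _).trans (min_le_left _ _)
    · exact (min_le_right _ _).trans (min_le_right _ _)
  obtain ⟨δ₀, hδ₀, hGr⟩ := hG b κ r Z s₁ tI U hLF X₀ hRX κ₀ Γ hκ₀ hκ₀κ hΓ
    (fun x h1 h2 => hΓper x ⟨h1, h2⟩) R κ'' Φ hR0 hκ''0 (fun j => (hΦd j).mono (hSB j))
    (fun j x h1 h2 => by
      obtain ⟨h3, h4⟩ := hΦe j x (h1.trans_le (hκ''1 j)) (by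
        have h5 := hxi_im (j : ℕ)
        push_cast at h5 ⊢
        rw [h5]
        exact h2)
      exact ⟨⟨hcR j x (h1.trans_le (hκ''2 j)), h3.2⟩, h4⟩)
  -- distance of `x₀` from the isotropic points
  obtain ⟨d₁, hd₁, hd₁'⟩ : ∃ d₁ : ℝ, 0 < d₁ ∧ ∀ k : ℤ, d₁ < ‖x₀ - xi b k‖ := by
    obtain ⟨e, he, hball⟩ := Metric.mem_nhds_iff.1 (nhds_xi hx₀i)
    refine ⟨e / 2, by linarith, fun k => ?_⟩
    by_contra hcon
    have h1 : xi b k ∈ Metric.ball x₀ e := by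
      rw [Metric.mem_ball, dist_comm, dist_eq_norm]
      linarith [not_lt.1 hcon]
    exact hball h1 k rfl
  set δ₁ : ℝ := min d₁ (min (δ₀ / 2) b) with hδ₁
  have hb : 0 < b := hκ₀.trans hκ₀b
  have hδ₁0 : 0 < δ₁ := lt_min hd₁ (lt_min (by linarith) hb)
  have hδ₁1 : δ₁ ≤ d₁ := min_le_left _ _
  have hδ₁2 : δ₁ ≤ δ₀ / 2 := (min_le_right _ _).trans (min_le_left _ _)
  have hδ₁3 : δ₁ ≤ b := (min_le_right _ _).trans (min_le_right _ _)
  obtain ⟨ρ₀, hρ₀, hGr⟩ := hGr δ₁ hδ₁0 (by linarith)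
  set ρ : ℝ := min (ρ₀ / 2) (min (r / 2) (δ₁ / 800)) with hρdef
  have hρ : 0 < ρ := lt_min (by linarith) (lt_min (by linarith) (by linarith))
  have hρ1 : ρ ≤ ρ₀ / 2 := min_le_left _ _
  have hρ2 : ρ ≤ r / 2 := (min_le_right _ _).trans (min_le_left _ _)
  have hρ3 : ρ ≤ δ₁ / 800 := (min_le_right _ _).trans (min_le_right _ _)
  have heps : eps * ρ ≤ ρ / 1000 := by unfold eps; linarith
  have heps0 : 0 < eps * ρ := mul_pos eps_pos hρ
  obtain ⟨G, hGd, hM, hGper, hG0, hGX, hGloc, -⟩ := hGr ρ hρ (by linarith)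
  obtain ⟨F, hF, hFe⟩ := kink_ext hVL hK0 (κ := κ₀ / 2) (β := b - eps * ρ) (ρ := ρ) (G := G)
    (by linarith) hρ (by linarith) hGd hM hGper
    (fun n hn p hp hnp => by
      rw [← hvan n hn p hp (by linarith)]
      refine intervalIntegral.integral_congr fun t _ => ?_
      rw [hGX t _ hnp, hΓγ _ (by simpa using hκ₀)])
    x₀ (δ₁ / 4) (by rw [hx₀]; ring) (by linarith) (by rw [hx₀]; linarith)
    (hGloc x₀ hx₀ fun k => hδ₁1.trans_lt (hd₁' k))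
  refine ⟨ρ / 50, F, by linarith, hF, fun s hs h2 => ?_⟩
  have hDo : IsOpen (Metric.ball x₀ (ρ / 50) ∩ Str (-κ₀) b) :=
    Metric.isOpen_ball.inter (isOpen_Str _ _)
  have hDc : Convex ℝ (Metric.ball x₀ (ρ / 50) ∩ Str (-κ₀) b) :=
    (convex_ball _ _).inter (convex_Str _ _)
  set z : ℂ := x₀ - ((ρ / 100 : ℝ) : ℂ) * Complex.I with hz
  have hzim : z.im = b - ρ / 100 := by rw [hz]; simp [hx₀]
  have hzb : z ∈ Metric.ball x₀ (ρ / 50) := by
    rw [Metric.mem_ball, dist_eq_norm]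
    have : z - x₀ = -(((ρ / 100 : ℝ) : ℂ) * Complex.I) := by rw [hz]; ring
    rw [this, norm_neg, norm_mul, Complex.norm_I, mul_one, Complex.norm_real, Real.norm_eq_abs,
      abs_of_pos (by linarith)]
    linarith
  have hzD : z ∈ Metric.ball x₀ (ρ / 50) ∩ Str (-κ₀) b :=
    ⟨hzb, by rw [hzim]; linarith, by rw [hzim]; linarith⟩
  have hs0 : -κ₀ < s.im := by
    rw [Metric.mem_ball, dist_eq_norm] at hs
    have h1 := (abs_im_sub_le s x₀).trans_lt hs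
    rw [abs_lt, hx₀] at h1
    linarith [h1.1]
  refine eqOn_convex hDo hDc (hF.mono inter_subset_left) (hΓ.mono inter_subset_right) hzD ?_ s
    ⟨hs, hs0, h2⟩
  have h3 : ∀ᶠ y in 𝓝 z, y ∈ Metric.ball x₀ (ρ / 50) ∧ y ∈ Str (-(κ₀ / 2)) (b - eps * ρ) := by
    refine (Metric.isOpen_ball.eventually_mem hzb).and ((isOpen_Str _ _).eventually_mem ?_)
    exact ⟨by rw [hzim]; linarith, by rw [hzim]; linarith⟩
  filter_upwards [h3] with y hy
  rw [hFe y hy.1 hy.2.2, hG0 y hy.2.1 hy.2.2]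

end Vale.Agent.P097.H809
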